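import Vale.Agent.P207.N3.H266.SmoothOf
import Vale.Agent.P207.N3.H828.SmB

/-!
# P207, line N3, package P12G: the producer of the structure `SmB`
-/

open Set Filter Topology Metric
open scoped ContDiff

noncomputable section

namespace Vale.Agent.P207.N3.H266

open Vale.Agent.P207.N3.H722 (GeoIn HessIn)

variable {Γ X B : Type} [Group Γ] [MetricSpace X] [ProperSpace X] [MulAction Γ X]
  [IsIsometricSMul Γ X] [TopologicalSpace B] [CompactSpace B] [T2Space B] [MulAction Γ B]
  [ContinuousConstSMul Γ B]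
variable {L : Leaf Γ X B} {V : Type} [NormedAddCommGroup V] [NormedSpace ℝ V]
  [FiniteDimensional ℝ V]

/-- **P12G**, with joint continuity of all derivatives -/
theorem smB_of_alt (I : GeoIn L V) (M : Metr L) (hH : HessIn I M)
    (hS : SmoothAlt (Ten.tens M)) {o : V} (hbo : ∀ ξ, I.b ξ o = 0) (D : B → B → ℝ)
    (hD : ∀ x, D (L.em x) (L.ep x) = L.lv x + L.lp x) : H828.SmB L D := by
  obtain ⟨H, h1, h2, h3⟩ := exists_hess I M hH hS
  have hne : Nonempty B := ⟨L.em (Classical.choice L.nonempty)⟩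
  have hs := H289.smoothHess_of hH H h1 h2 h3
  exact ⟨H289.tau_jc hH hs, H289.D_jc hH hs hbo D hD, fun q hq =>
    H289.nondeg_of hH hs hbo D hD q.1.1 q.1.2 q.2 hq⟩

end Vale.Agent.P207.N3.H266
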