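import Vale.Agent.P207.N3.H266.HessB
import Vale.Agent.P207.N3.H289.Bridge

/-!
# P207, line N3, package P12G: the producer of the structure `Smooth`

In the smooth alternative all transition maps between the charts of the leaves (also of different
leaves) and the function `D` are smooth.
-/

open Set Filter Topology Metric
open scoped ContDiff

noncomputable section

namespace Vale.Agent.P207.N3.H266

open Vale.Agent.P207.N3.H722 (GeoIn HessIn)

variable {Γ X B : Type} [Group Γ] [MetricSpace X] [ProperSpace X] [MulAction Γ X]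
  [IsIsometricSMul Γ X] [TopologicalSpace B] [CompactSpace B] [T2Space B] [MulAction Γ B]
  [ContinuousConstSMul Γ B]
variable {L : Leaf Γ X B} {V : Type} [NormedAddCommGroup V] [NormedSpace ℝ V]
  [FiniteDimensional ℝ V]

/-- **P12G** -/
theorem smooth_of_alt (I : GeoIn L V) (M : Metr L) (hH : HessIn I M)
    (hS : SmoothAlt (Ten.tens M)) {o : V} (hbo : ∀ ξ, I.b ξ o = 0) (D : B → B → ℝ)
    (hD : ∀ x, D (L.em x) (L.ep x) = L.lv x + L.lp x) : H442.Smooth L D := by
  obtain ⟨H, h1, h2, h3⟩ := exists_hess I M hH hS
  exact H289.smooth_of hH hbo D hD H h1 h2 h3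

end Vale.Agent.P207.N3.H266
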